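import Vale.Agent.P261.H89.MainG
import Vale.Agent.P261.H476.GenSt

/-!
# P261: finite type of `K(n)`-local spectra is decided by finitely many consecutive degrees

There is a stable homotopy category with a suspension spectrum functor. In each of them, for
`p ≥ 11` and `1 ≤ n ≤ 4`, and for `p = 7` and `1 ≤ n ≤ 3`, let `K` be a Morava K-theory of height
`n` at `p` (they exist, and so does the localization of the sphere) and `X` a `K`-local spectrum,
for example the localization of the sphere. The homotopy groups `π_t X` carry exactly one structure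
of a `ℤ_p`-module; if they are finitely generated over `ℤ_p` for
`N = ∑_{1 ≤ m ≤ n} (2 p^m - 1)` consecutive values of `t`, then for all `t`, and then the number of
generators of `π_t X` grows at most like `|t| ^ (n - 1)`.

For every prime `p` and every `K` with `p = 0` on `K`, the first statement holds for the `K`-local
spectra whenever there is a `K`-acyclic `V` obtained from `S/p` by successive cofibres of self maps
of degrees `d ≥ 1`, and `N` is the sum of the numbers `d + 1`.
-/

open CategoryTheory MonoidalCategory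

namespace Vale.Agent.Results.P261.FiniteWindow

open Vale.Agent.P251 Vale.Agent.P251.St Vale.Agent.P251.St.SHCat

open Vale.Agent.P261.H631 (FG)
open Vale.Agent.P261.H476 (SelfMapTower)

theorem result : (∃ T : SHCat, Nonempty (Susp T)) ∧
    (∀ (T : SHCat) (S : Susp T) (p : ℕ) [Fact p.Prime] (n : ℕ), 1 ≤ n →
      (11 ≤ p ∧ n ≤ 4) ∨ (p = 7 ∧ n ≤ 3) →
      (∃ K : RingSp T, IsMorava S K p n) ∧
      ∀ K : RingSp T, IsMorava S K p n →
        (∃ (X : T.C) (x : Hom T.one X), IsLoc K.obj x) ∧
        ∀ X : T.C, (∀ W : T.C, Acyclic K.obj W → ∀ g : Hom W X, g = 0) →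
          (∀ t : ℤ, Nonempty (Unique (Module ℤ_[p] (Hom (sphere T t) X)))) ∧
          ∀ a : ℤ,
            (∀ t : ℤ, a ≤ t → t < a + ∑ m ∈ Finset.range n, (2 * (p : ℤ) ^ (m + 1) - 1) →
              FG p (Hom (sphere T t) X)) →
            (∀ t : ℤ, FG p (Hom (sphere T t) X)) ∧
            ∃ C : ℕ, ∀ t : ℤ,
              Nat.card (Hom (sphere T t) X ⧸ (zsmulAddGroupHom (p : ℤ) :
                Hom (sphere T t) X →+ Hom (sphere T t) X).range) ≤
                  p ^ (C * (1 + t.natAbs) ^ (n - 1))) ∧
    ∀ (T : SHCat) (p : ℕ) [Fact p.Prime] (K : T.C), zmul p (ident K) = 0 →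
      ∀ (N : ℤ) (V : T.C), SelfMapTower T p N V → Acyclic K V →
        ∀ X : T.C, (∀ W : T.C, Acyclic K W → ∀ g : Hom W X, g = 0) → ∀ a : ℤ,
          (∀ t : ℤ, a ≤ t → t < a + N → FG p (Hom (sphere T t) X)) →
          ∀ t : ℤ, FG p (Hom (sphere T t) X) :=
  ⟨nonempty_susp, fun T S _ _ n hn hpn =>
    ⟨P261.H80.exists_K S (by omega) n, fun K hK =>
      ⟨exists_isLoc T K.obj T.one, fun _ hX =>
        ⟨P261.H80.unique_module S hn hK hX, fun a h0 =>
          ⟨P261.H80.main S hn hpn hK hX a h0, P261.H89.main_growth S hn hpn hK hX a h0⟩⟩⟩⟩,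
    fun _ _ _ _ hK _ _ hV hKV _ hX a hw t => P261.H476.general_local hK hX hV hKV a hw t⟩

end Vale.Agent.Results.P261.FiniteWindow
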